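import Vale.Agent.P221.H72.Final4

/-!
# P221: the Hahn-Wilson conjecture is equivalent to its local version

`T` is a stable homotopy category with a suspension spectrum functor `S`, `K` is a sequence of
spectra (the Morava `K`-theories), `B` is a form of `BP⟨n⟩` (`IsForm2`).

First part: `V 1, …, V (n+1)` is a tower of generalized Moore spectra, `E` has the Bousfield class
of its telescopes `T(1) ∨ … ∨ T(n)`, `b : B ⟶ ZB` and `z : X ⟶ Z` are `E`-localizations; `X` is an
fp-spectrum of fp-type at most `n` (`IsFpAt p (V (n+1)) X`).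

Second part: `F` is a finite `p`-local spectrum with a self map `v` of positive degree whose cofibre
`V` has type `n + 1`, and `W = v⁻¹ F` is its telescope.
-/

open CategoryTheory MonoidalCategory Pretriangulated

namespace Vale.Agent.Results.P221.LocalCriterion

open Vale.Agent.P251.St Vale.Agent.P251.St.SHCat Vale.Agent.P257.St Vale.Agent.P221

theorem result (T : SHCat) (S : Susp T) (p n : ℕ) (hp : p.Prime) (K : ℕ → T.C)
    (B : T.C) (hB : IsForm2 K p n B) :
    (∀ (V W : ℕ → T.C) (d : ℕ → ℤ) (w : ∀ j : ℕ, Hom ((V j)⟦d j⟧) (V j)) (E : T.C),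
      IsMooreTower K p n V W d w E → ∀ (ZB : T.C) (b : Hom B ZB), IsLoc E b →
        -- the conjecture for `B` is equivalent to its local version
        ((∀ X : T.C, IsFpAt p (V (n + 1)) X → Thick (fun Y => Y = B) X) ↔
          (∀ Z : T.C, IsELocal E Z → (∀ k : ℤ, Finite (Hom (sphere T k) (ten (V 1) Z))) →
            Thick (fun Y => Y = ZB) Z)) ∧
        -- the localizations of the fp-spectra
        (∀ Z : T.C, (IsELocal E Z ∧ ∀ k : ℤ, Finite (Hom (sphere T k) (ten (V 1) Z))) ↔
          ∃ (X : T.C) (z : Hom X Z), IsFpAt p (V (n + 1)) X ∧ IsLoc E z) ∧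
        ∀ (X Z : T.C) (z : Hom X Z), IsFpAt p (V (n + 1)) X → IsLoc E z →
          -- `X ⟶ L_E X` is an isomorphism on homotopy groups in high degrees
          (∃ c : ℤ, ∀ k : ℤ, c ≤ k →
            Function.Bijective fun f : Hom (sphere T k) X => comp f z) ∧
          -- `X` is in the thick subcategory of `B` iff `L_E X` is in the one of `L_E B`
          (Thick (fun Y => Y = B) X ↔ Thick (fun Y => Y = ZB) Z) ∧
          -- the localizations of a family of fp-spectra
          (∀ P : T.C → Prop,
            (∀ Y, P Y → IsFpAt p (V (n + 1)) Y ∧ Thick (fun Y => Y = B) Y) →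
            Thick (fun Z' => ∃ (Y : T.C) (y : Hom Y Z'), P Y ∧ IsLoc E y) Z →
              Thick (fun Y => Y = B) X) ∧
          -- connective covers of `L_E X`
          (∀ (m : ℤ) (A : T.C) (a : Hom A Z),
            (∀ k : ℤ, k < m → ∀ f : Hom (sphere T k) A, f = 0) →
            (∀ k : ℤ, m ≤ k → Function.Bijective fun f : Hom (sphere T k) A => comp f a) →
            (Thick (fun Y => Y = B) X ↔ Thick (fun Y => Y = B) A))) ∧
    (∀ (F V W : T.C) (d : ℤ) (v : Hom (F⟦d⟧) F) (g : Hom F V) (h : Hom V (sus (F⟦d⟧))),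
      FinPLocal p F → 0 < d → Dist v g h → IsType K p (n + 1) V → IsTelescope v W →
      ∀ X : T.C, IsFpAt p V X →
        -- `F ⊗ X` and its telescope agree in high degrees
        (∃ (a : Hom (ten F X) (ten W X)) (c : ℤ), ∀ k : ℤ, c ≤ k →
          Function.Bijective fun f : Hom (sphere T k) (ten F X) => comp f a) ∧
        -- if the telescope `W ⊗ X` is in the thick subcategory of `W ⊗ B`
        (Thick (fun Y => Y = ten W B) (ten W X) → Thick (fun Y => Y = B) (ten F X)) ∧
        -- the same for the telescopes of a family of fp-spectra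
        (∀ P : T.C → Prop, (∀ Y, P Y → IsFpAt p V Y ∧ Thick (fun Y => Y = B) (ten F Y)) →
          Thick (fun Z => ∃ Y, P Y ∧ Z = ten W Y) (ten W X) →
            Thick (fun Y => Y = B) (ten F X)) ∧
        -- connective covers of `W ⊗ X`
        (∀ (m : ℤ) (A : T.C) (a : Hom A (ten W X)),
          (∀ k : ℤ, k < m → ∀ f : Hom (sphere T k) A, f = 0) →
          (∀ k : ℤ, m ≤ k → Function.Bijective fun f : Hom (sphere T k) A => comp f a) →
          (Thick (fun Y => Y = B) (ten F X) ↔ Thick (fun Y => Y = B) A))) := by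
  refine ⟨fun V W d w E hM ZB b hb => ⟨q1_iff hM S hp hB hb, image_iff hM S hp,
    fun X Z z hX hz => ⟨(loc_main hM hp hX hz).2.2.2, loc_iff hM S hp hB hX hz hb,
      fun P hP hT => loc_one hM S hp hB hX hz P hP hT,
      fun m A a h1 h2 => loc_three hM S hp hB hX hz a h1 h2⟩⟩,
    fun F V W d v g h hF hd hD hV hW X hX =>
      ⟨exists_tel_map hp hd hD hF hW hX,
      main_two S hp hd hD hF hW hB.tower.tower hX (hB.fp.at hV),
      main_one S hp hd hD hF hW hB.tower.tower hX,
      fun _ _ a h1 h2 => main_three S hp hd hD hF hW hB.tower.tower hX a h1 h2⟩⟩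

end Vale.Agent.Results.P221.LocalCriterion
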